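import Vale.Agent.P283.A647.Props

/-!
Row B5c: the linear forms of the other hyperplanes in a chart.
-/

set_option linter.all false

namespace Vale.Agent.P283.A647.H170

open MvPolynomial

/-- the coefficients of the forms -/
noncomputable def cf {g R : ℕ} (a : Fin R → Fin (g + 1) → ℂ) (p : Option (Fin R)) :
    Fin (g + 1) → ℂ := p.elim (Pi.single 0 1) a

section

variable {L : Type} [Field L] [Algebra ℂ L] {g R k : ℕ}

theorem form_eq (t : Fin g → L) (a : Fin R → Fin (g + 1) → ℂ) (p : Option (Fin R)) :
    form t a p = ∑ j, algebraMap ℂ L (cf a p j) * (Fin.cons 1 t : Fin (g + 1) → L) j := by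
  cases p with
  | none =>
    rw [Fin.sum_univ_succ, Finset.sum_eq_zero]
    · show (1 : L) = algebraMap ℂ L ((Pi.single 0 1 : Fin (g + 1) → ℂ) 0) * _ + 0
      rw [Pi.single_eq_same, map_one, Fin.cons_zero, mul_one, add_zero]
    · intro j _
      show algebraMap ℂ L ((Pi.single 0 1 : Fin (g + 1) → ℂ) j.succ) * _ = 0
      rw [Pi.single_eq_of_ne (Fin.succ_ne_zero j), map_zero, zero_mul]
  | some i => rfl

theorem form_ne {t : Fin g → L} {z : Fin k → L} (H : IsRat (Fin.append t z))
    (a : Fin R → Fin (g + 1) → ℂ) (p : Option (Fin R)) (hp : cf a p ≠ 0) : form t a p ≠ 0 := by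
  intro h0
  have ht : AlgebraicIndependent ℂ t := by
    have h1 := H.ind.comp (Fin.castAdd k) (Fin.castAdd_injective g k)
    have h2 : Fin.append t z ∘ Fin.castAdd k = t := by
      funext j
      rw [Function.comp_apply, Fin.append_left]
    rwa [h2] at h1
  have h1 : aeval t (C (cf a p 0) + ∑ j : Fin g, C (cf a p j.succ) * X j :
      MvPolynomial (Fin g) ℂ) = 0 := by
    rw [map_add, map_sum, aeval_C]
    rw [form_eq, Fin.sum_univ_succ, Fin.cons_zero, mul_one] at h0
    rw [← h0]
    refine congrArg _ (Finset.sum_congr rfl fun j _ => ?_)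
    rw [map_mul, aeval_C, aeval_X, Fin.cons_succ]
  have h2 := ht.eq_zero_of_aeval_eq_zero _ h1
  have h3 : ∀ v : Fin g → ℂ, cf a p 0 + ∑ j : Fin g, cf a p j.succ * v j = 0 := by
    intro v
    have h4 := congrArg (eval v) h2
    rw [map_add, map_sum, eval_C, map_zero] at h4
    rw [← h4]
    refine congrArg _ (Finset.sum_congr rfl fun j _ => ?_)
    rw [map_mul, eval_C, eval_X]
  have h4 : cf a p 0 = 0 := by
    have := h3 0
    rwa [Finset.sum_eq_zero, add_zero] at this
    intro j _
    rw [Pi.zero_apply, mul_zero]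
  refine hp (funext fun j => ?_)
  refine Fin.cases h4 (fun j => ?_) j
  have h5 := h3 (Pi.single j 1)
  rw [h4, zero_add, Finset.sum_eq_single j, Pi.single_eq_same, mul_one] at h5
  · exact h5
  · intro i _ hi
    rw [Pi.single_eq_of_ne hi, mul_zero]
  · intro h
    exact absurd (Finset.mem_univ j) h

end

theorem b5c : ArrLin := by
  classical
  intro g R k L _ _ t a z H hG m e he hem
  have hinj : ∀ p : Option (Fin R), (∀ j, e j ≠ p) →
      Function.Injective (Fin.cons p e : Fin (g + 1) → Option (Fin R)) := by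
    intro p hp
    refine Fin.cons_injective_iff.2 ⟨?_, he⟩
    rintro ⟨j, hj⟩
    exact hp j hj
  have hdet : ∀ p : Option (Fin R), (∀ j, e j ≠ p) →
      (Matrix.of fun i => cf a ((Fin.cons p e : Fin (g + 1) → Option (Fin R)) i)).det ≠ 0 :=
    fun p hp => hG _ (hinj p hp)
  have hx : ∀ p, ∃ x : Fin (g + 1) → ℂ, ∀ j,
      x 0 * cf a m j + ∑ i : Fin g, x i.succ * cf a (e i) j = cf a p j := by
    intro p
    refine ⟨Matrix.vecMul (cf a p)
      (Matrix.of fun i => cf a ((Fin.cons m e : Fin (g + 1) → Option (Fin R)) i))⁻¹, fun j => ?_⟩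
    have h1 : Matrix.vecMul (Matrix.vecMul (cf a p)
      (Matrix.of fun i => cf a ((Fin.cons m e : Fin (g + 1) → Option (Fin R)) i))⁻¹)
      (Matrix.of fun i => cf a ((Fin.cons m e : Fin (g + 1) → Option (Fin R)) i)) = cf a p := by
      rw [Matrix.vecMul_vecMul, Matrix.nonsing_inv_mul _ (isUnit_iff_ne_zero.2 (hdet m hem)),
        Matrix.vecMul_one]
    have h2 := congrFun h1 j
    rw [Matrix.vecMul, dotProduct, Fin.sum_univ_succ] at h2
    exact h2
  choose x hx using hx
  have hx0 : ∀ p, (∀ j, e j ≠ p) → x p 0 ≠ 0 := by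
    intro p hp h0
    have h1 : Matrix.vecMul (Fin.cons (-1) (fun i => x p i.succ) : Fin (g + 1) → ℂ)
        (Matrix.of fun i => cf a ((Fin.cons p e : Fin (g + 1) → Option (Fin R)) i)) = 0 := by
      funext j
      rw [Matrix.vecMul, dotProduct, Fin.sum_univ_succ]
      have h2 := hx p j
      rw [h0, zero_mul, zero_add] at h2
      show (-1 : ℂ) * cf a p j + ∑ i : Fin g, x p i.succ * cf a (e i) j = 0
      rw [h2]
      ring
    have h3 := congrFun (Matrix.eq_zero_of_vecMul_eq_zero (hdet p hp) h1) 0
    rw [Fin.cons_zero, Pi.zero_apply] at h3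
    norm_num at h3
  have hm0 : form t a m ≠ 0 := by
    refine form_ne H a m ?_
    intro h0
    refine hdet m hem (Matrix.det_eq_zero_of_row_eq_zero 0 fun j => ?_)
    exact congrFun h0 j
  have hform : ∀ p, form t a p = algebraMap ℂ L (x p 0) * form t a m +
      ∑ i : Fin g, algebraMap ℂ L (x p i.succ) * form t a (e i) := by
    intro p
    rw [form_eq t a p, form_eq t a m, Finset.mul_sum]
    rw [Finset.sum_congr rfl fun i _ => show algebraMap ℂ L (x p (Fin.succ i)) * form t a (e i) =
      ∑ j, algebraMap ℂ L (x p i.succ) * (algebraMap ℂ L (cf a (e i) j) *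
        (Fin.cons 1 t : Fin (g + 1) → L) j) by rw [form_eq, Finset.mul_sum]]
    rw [Finset.sum_comm, ← Finset.sum_add_distrib]
    refine Finset.sum_congr rfl fun j _ => ?_
    rw [← hx p j, map_add, map_sum, map_mul, add_mul, Finset.sum_mul, mul_assoc]
    refine congrArg _ (Finset.sum_congr rfl fun i _ => ?_)
    rw [map_mul, mul_assoc]
  refine ⟨fun p => if (∃ j, e j = p) then 1 else x p 0,
    fun p i => if (∃ j, e j = p) then 0 else
      (Fin.addCases (fun j => x p j.succ) (fun _ => 0) i : ℂ), ?_, ?_, ?_, ?_, ?_⟩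
  · intro p
    dsimp only
    split_ifs with h
    · exact one_ne_zero
    · exact hx0 p fun j hj => h ⟨j, hj⟩
  · intro p hp
    have h : ¬ ∃ j, e j = p := fun ⟨j, hj⟩ => hp j hj
    unfold lin
    dsimp only
    rw [if_neg h, Fin.sum_univ_add]
    rw [Finset.sum_congr rfl fun j _ => show algebraMap ℂ L (if (∃ j, e j = p) then 0 else
      (Fin.addCases (fun j => x p (Fin.succ j)) (fun _ => 0) (Fin.castAdd k j) : ℂ)) *
        arrY t a z m e (Fin.castAdd k j) =
        algebraMap ℂ L (x p (Fin.succ j)) * (form t a (e j) / form t a m) by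
      rw [if_neg h, Fin.addCases_left]
      unfold arrY
      rw [Fin.append_left]]
    rw [Finset.sum_eq_zero (s := Finset.univ (α := Fin k)), add_zero]
    · rw [hform p, add_div, mul_div_assoc, div_self hm0, mul_one, Finset.sum_div]
      refine congrArg _ (Finset.sum_congr rfl fun j _ => ?_)
      rw [mul_div_assoc]
    · intro l _
      rw [if_neg h, Fin.addCases_right, map_zero, zero_mul]
  · intro p hp
    unfold lin
    dsimp only
    rw [if_pos hp, map_one, Finset.sum_eq_zero, add_zero]
    intro j _
    rw [if_pos hp, map_zero, zero_mul]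
  · intro p l
    dsimp only
    split_ifs
    · rfl
    · rw [Fin.addCases_right]
  · intro δ hδ
    have hc : ∀ p j, δ (cf a p j) = 0 := by
      intro p j
      cases p with
      | none =>
        show δ ((Pi.single 0 1 : Fin (g + 1) → ℂ) j) = 0
        by_cases hj : j = 0
        · rw [hj, Pi.single_eq_same]
          exact δ.map_one_eq_zero
        · rw [Pi.single_eq_of_ne hj, map_zero]
      | some i => exact hδ i j
    have h1 : ∀ p i, δ (x p i) = 0 := by
      intro p i
      have h2 : Matrix.vecMul (fun i => δ (x p i))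
          (Matrix.of fun i => cf a ((Fin.cons m e : Fin (g + 1) → Option (Fin R)) i)) = 0 := by
        funext j
        rw [Matrix.vecMul, dotProduct, Fin.sum_univ_succ]
        show δ (x p 0) * cf a m j + ∑ i : Fin g, δ (x p i.succ) * cf a (e i) j = 0
        have h3 := congrArg δ (hx p j)
        rw [hc p j, map_add, map_sum, Derivation.leibniz, hc, smul_zero, zero_add, smul_eq_mul,
          mul_comm] at h3
        rw [← h3]
        refine congrArg _ (Finset.sum_congr rfl fun i _ => ?_)
        rw [Derivation.leibniz, hc, smul_zero, zero_add, smul_eq_mul, mul_comm]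
      exact congrFun (Matrix.eq_zero_of_vecMul_eq_zero (hdet m hem) h2) i
    constructor
    · intro p
      dsimp only
      split_ifs
      · exact δ.map_one_eq_zero
      · exact h1 p 0
    · intro p j
      dsimp only
      split_ifs
      · rw [map_zero]
      · refine Fin.addCases (fun j => ?_) (fun l => ?_) j
        · rw [Fin.addCases_left]
          exact h1 p j.succ
        · rw [Fin.addCases_right, map_zero]

end Vale.Agent.P283.A647.H170
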