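import Mathlib

/-!
A basis adapted to the weights of a valuation (matroid form).
-/

set_option linter.all false

namespace Vale.Agent.P283.A647.H170

open Matrix

/-- the row combination -/
theorem exists_comb {P : Type} {n : ℕ} (c : P → Fin n → ℂ) (b : Fin n → P)
    (hb : (Matrix.of fun i => c (b i)).det ≠ 0) (v : Fin n → ℂ) :
    ∃ x : Fin n → ℂ, ∀ j, ∑ i, x i * c (b i) j = v j := by
  refine ⟨Matrix.vecMul v (Matrix.of fun i => c (b i))⁻¹, fun j => ?_⟩
  have h1 : Matrix.vecMul (Matrix.vecMul v (Matrix.of fun i => c (b i))⁻¹)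
      (Matrix.of fun i => c (b i)) = v := by
    rw [Matrix.vecMul_vecMul, Matrix.nonsing_inv_mul _ (isUnit_iff_ne_zero.2 hb),
      Matrix.vecMul_one]
  have h2 := congrFun h1 j
  rw [Matrix.vecMul, dotProduct] at h2
  exact h2

/-- exchange: the determinant after replacing a row by a combination -/
theorem det_exchange {P : Type} {n : ℕ} (c : P → Fin n → ℂ) (b : Fin n → P) (p : P)
    (x : Fin n → ℂ) (hx : ∀ j, ∑ i, x i * c (b i) j = c p j) (i : Fin n) :
    (Matrix.of fun i' => c (Function.update b i p i')).det =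
      x i * (Matrix.of fun i' => c (b i')).det := by
  have h1 : (Matrix.of fun i' => c (Function.update b i p i')) =
      (Matrix.of fun i' => c (b i')).updateRow i
        (∑ i', x i' • (Matrix.of fun i' => c (b i')) i') := by
    funext i' j
    by_cases h : i' = i
    · subst h
      rw [Matrix.updateRow_self, Matrix.of_apply, Function.update_self, Finset.sum_apply, ← hx j]
      rfl
    · rw [Matrix.updateRow_ne h, Matrix.of_apply, Function.update_of_ne h]
      rfl
  rw [h1, Matrix.det_updateRow_sum]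
  rfl

/-- A basis of largest weight, ordered by the weights. If `w` has the property `hw` of the weights
of a valuation (no `c p` is a combination of vectors of larger weight), then every `c p` is a
combination of basis vectors of weight at least `w p`, one of which has the weight `w p`. -/
theorem exists_basis {P : Type} [Finite P] {n : ℕ} (c : P → Fin n → ℂ)
    (hspan : ∃ b : Fin n → P, (Matrix.of fun i => c (b i)).det ≠ 0) (w : P → ℤ)
    (hw : ∀ (p : P) (b : Fin n → P) (x : Fin n → ℂ), (∀ j, ∑ i, x i * c (b i) j = c p j) →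
      ∃ i, x i ≠ 0 ∧ w (b i) ≤ w p) :
    ∃ b : Fin n → P, (Matrix.of fun i => c (b i)).det ≠ 0 ∧ Monotone (w ∘ b) ∧
      ∀ p, ∀ x : Fin n → ℂ, (∀ j, ∑ i, x i * c (b i) j = c p j) →
        (∀ i, x i ≠ 0 → w p ≤ w (b i)) ∧ ∃ i, x i ≠ 0 ∧ w (b i) = w p ∧ ∀ j < i, x j = 0 := by
  classical
  obtain ⟨b₀, hb₀⟩ := hspan
  obtain ⟨b, hb, hmax⟩ : ∃ b : Fin n → P, (Matrix.of fun i => c (b i)).det ≠ 0 ∧
      ∀ b' : Fin n → P, (Matrix.of fun i => c (b' i)).det ≠ 0 → ∑ i, w (b' i) ≤ ∑ i, w (b i) := by
    obtain ⟨b, hb, hmax⟩ := Set.Finite.exists_maximalFor (fun b : Fin n → P => ∑ i, w (b i))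
      {b : Fin n → P | (Matrix.of fun i => c (b i)).det ≠ 0} (Set.toFinite _) ⟨b₀, hb₀⟩
    exact ⟨b, hb, fun b' hb' => le_of_not_gt fun h => absurd (hmax hb' h.le) (not_le.2 h)⟩
  have hge : ∀ p, ∀ x : Fin n → ℂ, (∀ j, ∑ i, x i * c (b i) j = c p j) →
      ∀ i, x i ≠ 0 → w p ≤ w (b i) := by
    intro p x hx i hi
    have h1 := hmax (Function.update b i p) (by
      rw [det_exchange c b p x hx i]
      exact mul_ne_zero hi hb)
    rw [← Finset.add_sum_erase _ _ (Finset.mem_univ i),
      ← Finset.add_sum_erase _ (fun i => w (b i)) (Finset.mem_univ i), Function.update_self,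
      Finset.sum_congr rfl fun j hj => show w (Function.update b i p j) = w (b j) by
        rw [Function.update_of_ne (Finset.ne_of_mem_erase hj)]] at h1
    linarith
  refine ⟨b ∘ Tuple.sort (w ∘ b), ?_, Tuple.monotone_sort (w ∘ b), ?_⟩
  · have h1 : (Matrix.of fun i => c ((b ∘ Tuple.sort (w ∘ b)) i)) =
        (Matrix.of fun i => c (b i)).submatrix (Tuple.sort (w ∘ b)) id := rfl
    rw [h1, Matrix.det_permute]
    refine mul_ne_zero ?_ hb
    exact_mod_cast Units.ne_zero _
  · intro p x hx
    have h0 : ∀ i, x i ≠ 0 → w p ≤ w ((b ∘ Tuple.sort (w ∘ b)) i) := by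
      intro i hi
      have h1 : ∀ j, ∑ i, x ((Tuple.sort (w ∘ b)).symm i) * c (b i) j = c p j := by
        intro j
        rw [← hx j]
        exact (Equiv.sum_comp (Tuple.sort (w ∘ b))
          (fun i => x ((Tuple.sort (w ∘ b)).symm i) * c (b i) j)).symm.trans
          (Finset.sum_congr rfl fun i _ => by
            rw [Equiv.symm_apply_apply]
            rfl)
      refine hge p _ h1 _ ?_
      rw [Equiv.symm_apply_apply]
      exact hi
    refine ⟨h0, ?_⟩
    obtain ⟨i, hi, hwi⟩ := hw p _ x hx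
    -- the least index with nonzero coefficient
    obtain ⟨S, hS⟩ : ∃ S : Finset (Fin n), ∀ j, j ∈ S ↔ x j ≠ 0 :=
      ⟨Finset.filter (fun j : Fin n => x j ≠ 0) Finset.univ, fun j => by
        rw [Finset.mem_filter]
        exact and_iff_right (Finset.mem_univ j)⟩
    have hne : S.Nonempty := ⟨i, (hS i).2 hi⟩
    have hmem := (hS _).1 (S.min'_mem hne)
    have hle : S.min' hne ≤ i := S.min'_le i ((hS i).2 hi)
    refine ⟨S.min' hne, hmem, le_antisymm ?_ (h0 _ hmem), fun j hj => ?_⟩
    · exact (Tuple.monotone_sort (w ∘ b) hle).trans hwi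
    · by_contra hxj
      exact absurd (S.min'_le j ((hS j).2 hxj)) (not_le.2 hj)

end Vale.Agent.P283.A647.H170
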