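import Vale.Agent.P283.A647.Props
import Vale.Agent.P283.T647.Ch
import Vale.Agent.P283.H647.PsiV

/-!
Monomial changes of coordinates.
-/

set_option linter.all false

namespace Vale.Agent.P283.A647.H170

open MvPolynomial
open Vale.Agent.P283.H647 (dlog_monoT ov_monoT)

section

variable {L : Type} [Field L] [Algebra ℂ L] {d : ℕ}

/-- The Jacobian of monomials. -/
theorem jac_mono (u : Fin d → L) (hu : ∀ i, u i ≠ 0) (M : Matrix (Fin d) (Fin d) ℤ)
    (D' : Fin d → Derivation ℂ L L) :
    Q.jac D' (fun j => monoT u (M j)) =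
      ((M.det : ℤ) : L) * (∏ j, monoT u (M j)) * (∏ i, u i)⁻¹ * Q.jac D' u := by
  have h1 : (Matrix.of fun i j => D' j (monoT u (M i))) =
      Matrix.diagonal (fun j => monoT u (M j)) * M.map (Int.castRingHom L) *
        Matrix.diagonal (fun i => (u i)⁻¹) * (Matrix.of fun i j => D' j (u i)) := by
    ext i j
    rw [Matrix.mul_apply, Matrix.of_apply, dlog_monoT (D' j) hu (M i), Finset.mul_sum]
    refine Finset.sum_congr rfl fun l _ => ?_
    rw [Matrix.mul_diagonal, Matrix.diagonal_mul, Matrix.map_apply, Matrix.of_apply, div_eq_mul_inv]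
    show monoT u (M i) * (((M i l : ℤ) : L) * (D' j (u l) * (u l)⁻¹)) =
      monoT u (M i) * ((M i l : ℤ) : L) * (u l)⁻¹ * D' j (u l)
    ring
  unfold Q.jac
  rw [h1, Matrix.det_mul, Matrix.det_mul, Matrix.det_mul, Matrix.det_diagonal,
    Matrix.det_diagonal, Finset.prod_inv_distrib]
  have h2 : (M.map (Int.castRingHom L)).det = ((M.det : ℤ) : L) :=
    (RingHom.map_det (Int.castRingHom L) M).symm
  rw [h2]
  ring

theorem monoT_monoT (u : Fin d → L) (hu : ∀ i, u i ≠ 0) (M : Matrix (Fin d) (Fin d) ℤ)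
    (v : Fin d → ℤ) : monoT (fun j => monoT u (M j)) v = monoT u (Matrix.vecMul v M) := by
  unfold monoT
  rw [Finset.prod_congr rfl fun j _ => show (∏ i, u i ^ M j i) ^ v j = ∏ i, u i ^ (v j * M j i) by
    rw [← Finset.prod_zpow]
    refine Finset.prod_congr rfl fun i _ => ?_
    rw [← zpow_mul, mul_comm]]
  rw [Finset.prod_comm]
  refine Finset.prod_congr rfl fun i _ => ?_
  rw [Matrix.vecMul, dotProduct]
  induction (Finset.univ : Finset (Fin d)) using Finset.induction_on with
  | empty => simp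
  | insert a s ha ih => rw [Finset.prod_insert ha, Finset.sum_insert ha, ih, zpow_add₀ (hu i)]

theorem isRat_of {y u : Fin d → L} (H : IsRat u)
    (hy : ∀ i, u i ∈ IntermediateField.adjoin ℂ (Set.range y)) : IsRat y := by
  have hgen : IntermediateField.adjoin ℂ (Set.range y) = ⊤ := by
    rw [eq_top_iff, ← H.gen, IntermediateField.adjoin_le_iff]
    rintro _ ⟨i, rfl⟩
    exact hy i
  refine ⟨hgen, ?_⟩
  haveI : Algebra.IsAlgebraic (Algebra.adjoin ℂ (Set.range y)) L := T647.isAlg_of_gen hgen
  haveI : Algebra.IsAlgebraic (Algebra.adjoin ℂ (Set.range u)) L := T647.isAlg_of_gen H.gen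
  have h1 : Algebra.trdeg ℂ L = ((d : ℕ) : Cardinal) := by
    have hc : IsCoords u :=
      { ind := H.ind
        gen := by
          intro f
          obtain ⟨p, r, hr, hf⟩ := T647.gen_div H.gen f
          exact ⟨p, r, fun h0 => hr (by rw [h0, map_zero]), hf⟩ }
    rw [hc.trdeg_eq, Fintype.card_fin]
  have h2 := Algebra.IsAlgebraic.isTranscendenceBasis_of_le_trdeg_of_finite (R := ℂ)
    y (by rw [h1]; simp)
  exact h2.1

/-- Monomial coordinates with an invertible matrix of exponents. -/
theorem isRat_mono {u : Fin d → L} (H : IsRat u) (M M' : Matrix (Fin d) (Fin d) ℤ)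
    (hM : M' * M = 1) : IsRat (fun j => monoT u (M j)) := by
  refine isRat_of H fun i => ?_
  have hu : ∀ i, u i ≠ 0 := fun i => H.ind.ne_zero i
  have h1 : monoT (fun j => monoT u (M j)) (M' i) = u i := by
    rw [monoT_monoT u hu]
    have h2 : Matrix.vecMul (M' i) M = fun j => (1 : Matrix (Fin d) (Fin d) ℤ) i j := by
      rw [← hM]
      rfl
    rw [h2]
    unfold monoT
    rw [Finset.prod_eq_single i]
    · show u i ^ ((1 : Matrix (Fin d) (Fin d) ℤ) i i) = u i
      rw [Matrix.one_apply_eq, zpow_one]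
    · intro j _ hj
      show u j ^ ((1 : Matrix (Fin d) (Fin d) ℤ) i j) = 1
      rw [Matrix.one_apply_ne' hj, zpow_zero]
    · intro h
      exact absurd (Finset.mem_univ i) h
  rw [← h1]
  unfold monoT
  refine prod_mem fun j _ => zpow_mem ?_ _
  exact IntermediateField.subset_adjoin ℂ _ ⟨j, rfl⟩

end

end Vale.Agent.P283.A647.H170
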