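import Vale.Agent.P283.A647.B5b
import Vale.Agent.P283.A647.H170.Basis
import Vale.Agent.P283.A647.H170.Mono

/-!
The chart of an arbitrary arrangement of hyperplanes attached to a basis.
-/

set_option linter.all false

namespace Vale.Agent.P283.A647.H170

open MvPolynomial
open Vale.Agent.P283.A647.H279 (rowOf)

section

variable {L : Type} [Field L] [Algebra ℂ L] {g R k : ℕ}

/-- The matrix of the coefficients of the forms of a basis. -/
noncomputable def bmat (a : Fin R → Fin (g + 1) → ℂ) (b : Fin (g + 1) → Option (Fin R)) :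
    Matrix (Fin (g + 1)) (Fin (g + 1)) ℂ := Matrix.of fun i => rowOf a (b i)

theorem row_ne {a : Fin R → Fin (g + 1) → ℂ} {b : Fin (g + 1) → Option (Fin R)}
    (hb : (bmat a b).det ≠ 0) (i : Fin (g + 1)) : rowOf a (b i) ≠ 0 := by
  intro h
  exact hb (Matrix.det_eq_zero_of_row_eq_zero i fun j => congrFun h j)

theorem formb_ne {t : Fin g → L} {z : Fin k → L} (H : IsRat (Fin.append t z))
    {a : Fin R → Fin (g + 1) → ℂ} {b : Fin (g + 1) → Option (Fin R)}
    (hb : (bmat a b).det ≠ 0) (i : Fin (g + 1)) : form t a (b i) ≠ 0 :=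
  H279.form_ne H (row_ne hb i)

/-- The coordinates `ℓ_(b j) / ℓ_(b 0)`, `z_l`. -/
noncomputable def chU (t : Fin g → L) (a : Fin R → Fin (g + 1) → ℂ) (z : Fin k → L)
    (b : Fin (g + 1) → Option (Fin R)) : Fin (g + k) → L :=
  Fin.append (fun j => form t a (b (Fin.succ j)) / form t a (b 0)) z

/-- The coordinates `ℓ_(b (j + 1)) / ℓ_(b j)`, `z_l`. -/
noncomputable def chY (t : Fin g → L) (a : Fin R → Fin (g + 1) → ℂ) (z : Fin k → L)
    (b : Fin (g + 1) → Option (Fin R)) : Fin (g + k) → L :=
  Fin.append (fun j => form t a (b (Fin.succ j)) / form t a (b (Fin.castSucc j))) z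

theorem jac_chU {t : Fin g → L} {z : Fin k → L} (H : IsRat (Fin.append t z))
    {a : Fin R → Fin (g + 1) → ℂ} {b : Fin (g + 1) → Option (Fin R)}
    (hb : (bmat a b).det ≠ 0) (D' : Fin (g + k) → Derivation ℂ L L) :
    Q.jac D' (chU t a z b) = algebraMap ℂ L (bmat a b).det * (form t a (b 0))⁻¹ ^ (g + 1) *
      Q.jac D' (Fin.append t z) := by
  classical
  set Ac : Matrix (Fin (g + 1)) (Fin (g + 1)) ℂ := bmat a b with hAc
  set F : Fin (g + 1) → L := fun i => form t a (b i) with hF
  set A : Matrix (Fin (g + 1)) (Fin (g + 1)) L := (algebraMap ℂ L).mapMatrix Ac with hA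
  have hA' : ∀ i j, A i j = algebraMap ℂ L (rowOf a (b i) j) := fun i j => rfl
  have hFA : ∀ i, F i = ∑ j, A i j * (Fin.cons 1 t : Fin (g + 1) → L) j :=
    fun i => H279.form_eq t a _
  have h0 : F 0 ≠ 0 := formb_ne H hb 0
  have hproj := H279.det_proj A (Fin.cons 1 t) F rfl hFA h0
  set M : Matrix (Fin g) (Fin g) L := Matrix.of fun j i : Fin g =>
      (F 0 * A (Fin.succ j) (Fin.succ i) - F (Fin.succ j) * A 0 (Fin.succ i)) / F 0 ^ 2 with hM
  have hder : ∀ (D : Derivation ℂ L L) (j : Fin g),
      D (form t a (b (Fin.succ j)) / form t a (b 0)) = ∑ i, M j i * D (t i) := by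
    intro D j
    have h1 : form t a (b (Fin.succ j)) = F (Fin.succ j) := rfl
    have h2 : form t a (b 0) = F 0 := rfl
    rw [Derivation.leibniz_div, H279.der_form, H279.der_form, h1, h2, smul_eq_mul, smul_eq_mul,
      smul_eq_mul, Finset.mul_sum, Finset.mul_sum, ← Finset.sum_sub_distrib, Finset.mul_sum]
    refine Finset.sum_congr rfl fun i _ => ?_
    have h3 : M j i = (F 0 * A (Fin.succ j) (Fin.succ i) - F (Fin.succ j) * A 0 (Fin.succ i)) /
      F 0 ^ 2 := rfl
    have h4 : A (Fin.succ j) (Fin.succ i) =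
      algebraMap ℂ L (rowOf a (b (Fin.succ j)) (Fin.succ i)) := rfl
    have h5 : A 0 (Fin.succ i) = algebraMap ℂ L (rowOf a (b 0) (Fin.succ i)) := rfl
    rw [h3, h4, h5, div_eq_mul_inv]
    ring
  have hmul : (Matrix.of fun i j => D' j (chU t a z b i)) =
      (Matrix.reindex finSumFinEquiv finSumFinEquiv (Matrix.fromBlocks M 0 0 1)) *
        (Matrix.of fun i j => D' j ((Fin.append t z : Fin (g + k) → L) i)) := by
    ext i x
    rw [Matrix.mul_apply, Fin.sum_univ_add]
    refine Fin.addCases (fun j => ?_) (fun l => ?_) i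
    · simp only [Matrix.of_apply, Matrix.reindex_apply, Matrix.submatrix_apply,
        finSumFinEquiv_symm_apply_castAdd, finSumFinEquiv_symm_apply_natAdd,
        Matrix.fromBlocks_apply₁₁, Matrix.fromBlocks_apply₁₂, Matrix.zero_apply, zero_mul,
        Finset.sum_const_zero, add_zero, Fin.append_left, chU]
      exact hder _ _
    · simp only [Matrix.of_apply, Matrix.reindex_apply, Matrix.submatrix_apply,
        finSumFinEquiv_symm_apply_castAdd, finSumFinEquiv_symm_apply_natAdd,
        Matrix.fromBlocks_apply₂₁, Matrix.fromBlocks_apply₂₂, Matrix.zero_apply, zero_mul,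
        Finset.sum_const_zero, zero_add, Fin.append_right, chU, Matrix.one_apply, ite_mul,
        one_mul, Finset.sum_ite_eq, Finset.mem_univ, if_true]
  have hAdet : A.det = algebraMap ℂ L Ac.det := by
    rw [hA, ← RingHom.map_det]
  have h2 : form t a (b 0) = F 0 := rfl
  unfold Q.jac
  rw [hmul, Matrix.det_mul, Matrix.det_reindex_self, Matrix.det_fromBlocks_zero₂₁, Matrix.det_one,
    mul_one, hproj, hAdet, h2]

/-- Telescoping products. -/
theorem tele {f : Fin (g + 1) → L} (hf : ∀ i, f i ≠ 0) (i : Fin (g + 1)) (j : Fin (g + 1)) :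
    i ≤ j → (∏ l : Fin g, (f (Fin.succ l) / f (Fin.castSucc l)) ^
      (if i ≤ Fin.castSucc l ∧ Fin.castSucc l < j then 1 else 0 : ℕ)) = f j / f i := by
  induction j using Fin.induction with
  | zero =>
    intro h
    have h1 : i = 0 := le_antisymm h (Fin.zero_le _)
    rw [h1, div_self (hf 0)]
    refine Finset.prod_eq_one fun l _ => ?_
    rw [if_neg fun h => absurd h.2 (Fin.not_lt_zero _), pow_zero]
  | succ j ih =>
    intro h
    have h1 : ∀ l : Fin g, (f (Fin.succ l) / f (Fin.castSucc l)) ^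
        (if i ≤ Fin.castSucc l ∧ Fin.castSucc l < Fin.succ j then 1 else 0 : ℕ) =
        (f (Fin.succ l) / f (Fin.castSucc l)) ^
          (if i ≤ Fin.castSucc l ∧ Fin.castSucc l < Fin.castSucc j then 1 else 0 : ℕ) *
        (if l = j then (if i ≤ Fin.castSucc j then f (Fin.succ j) / f (Fin.castSucc j) else 1)
          else 1) := by
      intro l
      by_cases hl : l = j
      · subst hl
        rw [if_pos rfl, if_neg (fun h : _ ∧ _ => absurd h.2 (lt_irrefl _)), pow_zero, one_mul]
        by_cases hi : i ≤ Fin.castSucc l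
        · rw [if_pos ⟨hi, Fin.castSucc_lt_succ⟩, if_pos hi, pow_one]
        · rw [if_neg (fun h => hi h.1), if_neg hi, pow_zero]
      · rw [if_neg hl, mul_one]
        have h2 : Fin.castSucc l < Fin.succ j ↔ Fin.castSucc l < Fin.castSucc j := by
          rw [Fin.castSucc_lt_castSucc_iff, Fin.lt_def, Fin.lt_def, Fin.val_succ,
            Fin.val_castSucc]
          have : (l : ℕ) ≠ j := fun h => hl (Fin.ext h)
          omega
        simp only [h2]
    rw [Finset.prod_congr rfl fun l _ => h1 l, Finset.prod_mul_distrib, Finset.prod_ite_eq' ,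
      if_pos (Finset.mem_univ j)]
    by_cases hi : i ≤ Fin.castSucc j
    · rw [ih hi, if_pos hi]
      have := hf (Fin.castSucc j)
      field_simp
    · have h3 : i = Fin.succ j := by
        refine le_antisymm h ?_
        rw [not_le] at hi
        exact Fin.castSucc_lt_iff_succ_le.1 hi
      rw [if_neg hi, mul_one, h3, div_self (hf _)]
      refine Finset.prod_eq_one fun l _ => ?_
      rw [if_neg, pow_zero]
      rintro ⟨h4, h5⟩
      have h6 := lt_of_le_of_lt h4 h5
      rw [Fin.lt_def, Fin.val_succ, Fin.val_castSucc] at h6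
      omega

/-- The exponents of `ℓ_(b j) / ℓ_(b i)` in the coordinates. -/
def ex (k : ℕ) (i j : Fin (g + 1)) : Fin (g + k) → ℕ :=
  Fin.addCases (fun l => if i ≤ Fin.castSucc l ∧ Fin.castSucc l < j then 1 else 0) (fun _ => 0)

theorem prod_ex {t : Fin g → L} {z : Fin k → L} (H : IsRat (Fin.append t z))
    {a : Fin R → Fin (g + 1) → ℂ} {b : Fin (g + 1) → Option (Fin R)}
    (hb : (bmat a b).det ≠ 0) {i j : Fin (g + 1)} (hij : i ≤ j) :
    ∏ x, chY t a z b x ^ ex k i j x = form t a (b j) / form t a (b i) := by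
  rw [Fin.prod_univ_add]
  have h1 : ∀ l : Fin k, chY t a z b (Fin.natAdd g l) ^ ex k i j (Fin.natAdd g l) = 1 := by
    intro l
    unfold ex
    rw [Fin.addCases_right, pow_zero]
  rw [Finset.prod_eq_one (f := fun l : Fin k => _) fun l _ => h1 l, mul_one]
  rw [← tele (f := fun i => form t a (b i)) (fun i => formb_ne H hb i) i j hij]
  refine Finset.prod_congr rfl fun l _ => ?_
  unfold ex chY
  rw [Fin.addCases_left, Fin.append_left]

end

end Vale.Agent.P283.A647.H170
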