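import Vale.Agent.P283.A647.H170.Chart

/-!
The chart of an arbitrary arrangement of hyperplanes attached to a basis: the function field,
the Jacobian and the other forms.
-/

set_option linter.all false

namespace Vale.Agent.P283.A647.H170

open MvPolynomial
open Vale.Agent.P283.A647.H279 (rowOf)

section

variable {L : Type} [Field L] [Algebra ℂ L] {g R k : ℕ}

theorem lf_comb (t : Fin g → L) (a : Fin R → Fin (g + 1) → ℂ) (b : Fin (g + 1) → Option (Fin R))
    (v x : Fin (g + 1) → ℂ) (hx : ∀ j, ∑ i, x i * rowOf a (b i) j = v j) :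
    ∑ j, algebraMap ℂ L (v j) * (Fin.cons 1 t : Fin (g + 1) → L) j =
      ∑ i, algebraMap ℂ L (x i) * form t a (b i) := by
  rw [Finset.sum_congr rfl fun i _ => show algebraMap ℂ L (x i) * form t a (b i) =
    ∑ j, algebraMap ℂ L (x i) * (algebraMap ℂ L (rowOf a (b i) j) *
      (Fin.cons 1 t : Fin (g + 1) → L) j) by rw [H279.form_eq, Finset.mul_sum]]
  rw [Finset.sum_comm]
  refine Finset.sum_congr rfl fun j _ => ?_
  rw [← hx j, map_sum, Finset.sum_mul]
  refine Finset.sum_congr rfl fun i _ => ?_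
  rw [map_mul, mul_assoc]

theorem chY_ne {t : Fin g → L} {z : Fin k → L} (H : IsRat (Fin.append t z))
    {a : Fin R → Fin (g + 1) → ℂ} {b : Fin (g + 1) → Option (Fin R)}
    (hb : (bmat a b).det ≠ 0) (x : Fin (g + k)) : chY t a z b x ≠ 0 := by
  unfold chY
  refine Fin.addCases (fun j => ?_) (fun l => ?_) x
  · rw [Fin.append_left]
    exact div_ne_zero (formb_ne H hb _) (formb_ne H hb _)
  · rw [Fin.append_right]
    have := H.ind.ne_zero (Fin.natAdd g l)
    rwa [Fin.append_right] at this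

/-- The chart is a rational coordinate system. -/
theorem isRat_chY {t : Fin g → L} {z : Fin k → L} (H : IsRat (Fin.append t z))
    {a : Fin R → Fin (g + 1) → ℂ} {b : Fin (g + 1) → Option (Fin R)}
    (hb : (bmat a b).det ≠ 0) : IsRat (chY t a z b) := by
  refine isRat_of H ?_
  have hr : ∀ i, form t a (b i) / form t a (b 0) ∈
      IntermediateField.adjoin ℂ (Set.range (chY t a z b)) := by
    intro i
    rw [← prod_ex H hb (Fin.zero_le i)]
    exact prod_mem fun x _ => pow_mem
      (IntermediateField.subset_adjoin ℂ (Set.range (chY t a z b)) (Set.mem_range_self x)) _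
  have h0 : form t a (b 0) ∈ IntermediateField.adjoin ℂ (Set.range (chY t a z b)) := by
    obtain ⟨x, hx⟩ := exists_comb (rowOf a) b hb (Pi.single 0 1)
    have h1 := lf_comb t a b _ x hx
    have h2 : ∑ j, algebraMap ℂ L ((Pi.single 0 1 : Fin (g + 1) → ℂ) j) *
        (Fin.cons 1 t : Fin (g + 1) → L) j = 1 := by
      rw [Finset.sum_eq_single 0, Pi.single_eq_same, map_one, one_mul, Fin.cons_zero]
      · intro j _ hj
        rw [Pi.single_eq_of_ne hj, map_zero, zero_mul]
      · intro h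
        exact absurd (Finset.mem_univ _) h
    rw [h2] at h1
    have h3 : (form t a (b 0))⁻¹ =
        ∑ i, algebraMap ℂ L (x i) * (form t a (b i) / form t a (b 0)) := by
      have h4 := formb_ne H hb 0
      rw [Finset.sum_congr rfl fun i _ => show algebraMap ℂ L (x i) *
        (form t a (b i) / form t a (b 0)) = algebraMap ℂ L (x i) * form t a (b i) *
          (form t a (b 0))⁻¹ by ring, ← Finset.sum_mul, ← h1, one_mul]
    rw [← inv_inv (form t a (b 0)), h3]
    exact inv_mem (sum_mem fun i _ => mul_mem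
      (IntermediateField.algebraMap_mem _ _) (hr i))
  have hf : ∀ i, form t a (b i) ∈ IntermediateField.adjoin ℂ (Set.range (chY t a z b)) := by
    intro i
    have h1 : form t a (b i) = form t a (b i) / form t a (b 0) * form t a (b 0) := by
      rw [div_mul_cancel₀ _ (formb_ne H hb 0)]
    rw [h1]
    exact mul_mem (hr i) h0
  intro x
  refine Fin.addCases (fun j => ?_) (fun l => ?_) x
  · rw [Fin.append_left]
    obtain ⟨x, hx⟩ := exists_comb (rowOf a) b hb (Pi.single (Fin.succ j) 1)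
    have h1 := lf_comb t a b _ x hx
    have h2 : ∑ i, algebraMap ℂ L ((Pi.single (Fin.succ j) 1 : Fin (g + 1) → ℂ) i) *
        (Fin.cons 1 t : Fin (g + 1) → L) i = t j := by
      rw [Finset.sum_eq_single (Fin.succ j), Pi.single_eq_same, map_one, one_mul, Fin.cons_succ]
      · intro j _ hj
        rw [Pi.single_eq_of_ne hj, map_zero, zero_mul]
      · intro h
        exact absurd (Finset.mem_univ _) h
    rw [← h2, h1]
    exact sum_mem fun i _ => mul_mem (IntermediateField.algebraMap_mem _ _) (hf i)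
  · rw [Fin.append_right]
    refine IntermediateField.subset_adjoin ℂ _ ⟨Fin.natAdd g l, ?_⟩
    unfold chY
    rw [Fin.append_right]

/-- The exponents of the coordinates `chU` in the coordinates `chY`. -/
def exM (g k : ℕ) : Matrix (Fin (g + k)) (Fin (g + k)) ℤ := fun x y =>
  Fin.addCases (fun j => ((ex k 0 (Fin.succ j) y : ℕ) : ℤ))
    (fun l => if y = Fin.natAdd g l then 1 else 0) x

theorem monoT_exM {t : Fin g → L} {z : Fin k → L} (H : IsRat (Fin.append t z))
    {a : Fin R → Fin (g + 1) → ℂ} {b : Fin (g + 1) → Option (Fin R)}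
    (hb : (bmat a b).det ≠ 0) (x : Fin (g + k)) :
    monoT (chY t a z b) (exM g k x) = chU t a z b x := by
  unfold monoT exM
  refine Fin.addCases (fun j => ?_) (fun l => ?_) x
  · simp only [Fin.addCases_left]
    unfold chU
    rw [Fin.append_left, ← prod_ex H hb (Fin.zero_le (Fin.succ j))]
    refine Finset.prod_congr rfl fun y _ => ?_
    rw [zpow_natCast]
  · simp only [Fin.addCases_right]
    rw [Finset.prod_eq_single (Fin.natAdd g l), if_pos rfl, zpow_one]
    · unfold chU chY
      rw [Fin.append_right, Fin.append_right]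
    · intro y _ hy
      rw [if_neg hy, zpow_zero]
    · intro h
      exact absurd (Finset.mem_univ _) h

theorem exM_zero (x y : Fin (g + k)) (hxy : x < y) : exM g k x y = 0 := by
  unfold exM
  revert hxy
  refine Fin.addCases (fun j => ?_) (fun l => ?_) x
  · refine Fin.addCases (fun l => ?_) (fun l => ?_) y
    · intro h
      rw [Fin.addCases_left]
      unfold ex
      rw [Fin.addCases_left, if_neg]
      · rfl
      · rintro ⟨-, h2⟩
        rw [Fin.lt_def, Fin.val_castSucc, Fin.val_succ] at h2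
        rw [Fin.lt_def, Fin.val_castAdd, Fin.val_castAdd] at h
        omega
    · intro _
      rw [Fin.addCases_left]
      unfold ex
      rw [Fin.addCases_right]
      rfl
  · intro h
    rw [Fin.addCases_right, if_neg]
    exact fun h2 => absurd h2 (ne_of_gt h)

theorem exM_one (x : Fin (g + k)) : exM g k x x = 1 := by
  unfold exM
  refine Fin.addCases (fun j => ?_) (fun l => ?_) x
  · rw [Fin.addCases_left]
    unfold ex
    rw [Fin.addCases_left, if_pos ⟨Fin.zero_le _, Fin.castSucc_lt_succ⟩]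
    rfl
  · rw [Fin.addCases_right, if_pos rfl]

theorem det_exM : (exM g k).det = 1 := by
  rw [Matrix.det_of_lowerTriangular _ fun x y h => exM_zero x y h]
  exact Finset.prod_eq_one fun x _ => exM_one x

/-- The Jacobian of the chart. -/
theorem jac_chY {t : Fin g → L} {z : Fin k → L} (H : IsRat (Fin.append t z))
    {a : Fin R → Fin (g + 1) → ℂ} {b : Fin (g + 1) → Option (Fin R)}
    (hb : (bmat a b).det ≠ 0) (D' : Fin (g + k) → Derivation ℂ L L) :
    Q.jac D' (chY t a z b) = algebraMap ℂ L (bmat a b).det *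
      (∏ j : Fin g, chY t a z b (Fin.castAdd k j)) * (∏ i, form t a (b i))⁻¹ *
      Q.jac D' (Fin.append t z) := by
  have hY : ∀ x, chY t a z b x ≠ 0 := chY_ne H hb
  have h1 := jac_mono (chY t a z b) hY (exM g k) D'
  have h2 : (fun x => monoT (chY t a z b) (exM g k x)) = chU t a z b :=
    funext fun x => monoT_exM H hb x
  have h3 : ∏ x, monoT (chY t a z b) (exM g k x) = ∏ x, chU t a z b x :=
    Finset.prod_congr rfl fun x _ => monoT_exM H hb x
  have h2' : ∏ x, (fun x => monoT (chY t a z b) (exM g k x)) x = ∏ x, chU t a z b x := h3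
  rw [h2, det_exM, Int.cast_one, one_mul, jac_chU H hb D'] at h1
  have h4 : ∏ x, chU t a z b x = (∏ j : Fin g, form t a (b (Fin.succ j))) *
      (form t a (b 0))⁻¹ ^ g * ∏ l : Fin k, z l := by
    rw [Fin.prod_univ_add]
    have h5 : ∀ j : Fin g, chU t a z b (Fin.castAdd k j) =
        form t a (b (Fin.succ j)) * (form t a (b 0))⁻¹ := by
      intro j
      unfold chU
      rw [Fin.append_left, div_eq_mul_inv]
    have h6 : ∀ l : Fin k, chU t a z b (Fin.natAdd g l) = z l := by
      intro l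
      unfold chU
      rw [Fin.append_right]
    rw [Finset.prod_congr rfl fun j _ => h5 j, Finset.prod_congr rfl fun l _ => h6 l,
      Finset.prod_mul_distrib, Finset.prod_const, Finset.card_univ, Fintype.card_fin]
  have h7 : ∏ x, chY t a z b x = (∏ j : Fin g, chY t a z b (Fin.castAdd k j)) *
      ∏ l : Fin k, z l := by
    rw [Fin.prod_univ_add]
    refine congrArg _ (Finset.prod_congr rfl fun l _ => ?_)
    unfold chY
    rw [Fin.append_right]
  have hz : ∏ l : Fin k, z l ≠ 0 := by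
    refine Finset.prod_ne_zero_iff.2 fun l _ => ?_
    have := H.ind.ne_zero (Fin.natAdd g l)
    rwa [Fin.append_right] at this
  have hy : ∏ j : Fin g, chY t a z b (Fin.castAdd k j) ≠ 0 :=
    Finset.prod_ne_zero_iff.2 fun j _ => hY _
  have hs : ∏ j : Fin g, form t a (b (Fin.succ j)) ≠ 0 :=
    Finset.prod_ne_zero_iff.2 fun j _ => formb_ne H hb _
  have h0 := formb_ne H hb 0
  rw [h4, h7] at h1
  rw [Fin.prod_univ_succ (fun i => form t a (b i))]
  have h8 : (form t a (b 0))⁻¹ ^ g ≠ 0 := pow_ne_zero _ (inv_ne_zero h0)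
  have h9 : Q.jac D' (chY t a z b) =
      ((∏ j : Fin g, chY t a z b (Fin.castAdd k j)) * ∏ l : Fin k, z l) *
      ((∏ j : Fin g, form t a (b (Fin.succ j))) * (form t a (b 0))⁻¹ ^ g * ∏ l : Fin k, z l)⁻¹ *
      (algebraMap ℂ L (bmat a b).det * (form t a (b 0))⁻¹ ^ (g + 1) *
        Q.jac D' (Fin.append t z)) := by
    rw [h1]
    field_simp
  rw [h9, pow_succ]
  field_simp

/-- The polynomial of a form in the chart. -/
noncomputable def chQ (k : ℕ) (i₀ : Fin (g + 1)) (x : Fin (g + 1) → ℂ) :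
    MvPolynomial (Fin (g + k)) ℂ :=
  ∑ j, monomial (Finsupp.equivFunOnFinite.symm (ex k i₀ j)) (x j)

theorem aeval_chQ {t : Fin g → L} {z : Fin k → L} (H : IsRat (Fin.append t z))
    {a : Fin R → Fin (g + 1) → ℂ} {b : Fin (g + 1) → Option (Fin R)}
    (hb : (bmat a b).det ≠ 0) (p : Option (Fin R)) (x : Fin (g + 1) → ℂ)
    (hx : ∀ j, ∑ i, x i * rowOf a (b i) j = rowOf a p j) (i₀ : Fin (g + 1))
    (hi₀ : ∀ j < i₀, x j = 0) :
    form t a p = form t a (b i₀) * aeval (chY t a z b) (chQ k i₀ x) := by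
  have h0 := formb_ne H hb i₀
  have h1 : aeval (chY t a z b) (chQ k i₀ x) =
      ∑ j, algebraMap ℂ L (x j) * (form t a (b j) / form t a (b i₀)) := by
    unfold chQ
    rw [map_sum]
    refine Finset.sum_congr rfl fun j _ => ?_
    rcases lt_or_ge j i₀ with hj | hj
    · rw [hi₀ j hj, monomial_zero, map_zero, map_zero, zero_mul]
    · rw [aeval_monomial, ← prod_ex H hb hj, Finsupp.prod_fintype]
      · rfl
      · intro i
        rw [pow_zero]
  rw [h1, H279.form_eq t a p, lf_comb t a b _ x hx, Finset.mul_sum]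
  refine Finset.sum_congr rfl fun j _ => ?_
  field_simp

theorem coeff_chQ (i₀ : Fin (g + 1)) (x : Fin (g + 1) → ℂ) (β : Fin (g + k) →₀ ℕ) :
    coeff β (chQ k i₀ x) =
      ∑ j, if Finsupp.equivFunOnFinite.symm (ex k i₀ j) = β then x j else 0 := by
  classical
  unfold chQ
  rw [coeff_sum]
  exact Finset.sum_congr rfl fun j _ => coeff_monomial _ _ _

theorem coeff_zero_chQ (i₀ : Fin (g + 1)) (x : Fin (g + 1) → ℂ) (hi₀ : ∀ j < i₀, x j = 0) :
    coeff 0 (chQ k i₀ x) = x i₀ := by
  rw [coeff_chQ, Finset.sum_eq_single i₀, if_pos]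
  · ext y
    show ex k i₀ i₀ y = 0
    unfold ex
    refine Fin.addCases (fun l => ?_) (fun l => ?_) y
    · rw [Fin.addCases_left, if_neg]
      rintro ⟨h1, h2⟩
      exact absurd (lt_of_le_of_lt h1 h2) (lt_irrefl _)
    · rw [Fin.addCases_right]
  · intro j _ hj
    rcases lt_or_gt_of_ne hj with h | h
    · rw [hi₀ j h, ite_self]
    · rw [if_neg]
      intro h1
      have h2 : (i₀ : ℕ) < g := by
        have h3 := j.2
        have h4 : (i₀ : ℕ) < j := h
        omega
      have h3 := DFunLike.congr_fun h1 (Fin.castAdd k ⟨i₀, h2⟩)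
      have h4 : ex k i₀ j (Fin.castAdd k ⟨i₀, h2⟩) = 1 := by
        unfold ex
        rw [Fin.addCases_left, if_pos]
        exact ⟨le_refl _, h⟩
      have h5 : ex k i₀ j (Fin.castAdd k ⟨i₀, h2⟩) = 0 := h3
      omega
  · intro h
    exact absurd (Finset.mem_univ _) h

theorem support_chQ (i₀ : Fin (g + 1)) (x : Fin (g + 1) → ℂ) (β : Fin (g + k) →₀ ℕ)
    (hβ : β ∈ (chQ k i₀ x).support) (l : Fin k) : β (Fin.natAdd g l) = 0 := by
  rw [mem_support_iff, coeff_chQ] at hβ
  obtain ⟨j, -, hj⟩ := Finset.exists_ne_zero_of_sum_ne_zero hβ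
  have h1 : Finsupp.equivFunOnFinite.symm (ex k i₀ j) = β := by
    by_contra h
    rw [if_neg h] at hj
    exact hj rfl
  rw [← h1]
  show ex k i₀ j (Fin.natAdd g l) = 0
  unfold ex
  rw [Fin.addCases_right]

theorem der_row {a : Fin R → Fin (g + 1) → ℂ} {δ : Derivation ℚ ℂ ℂ}
    (hδ : ∀ i j, δ (a i j) = 0) (p : Option (Fin R)) (j : Fin (g + 1)) :
    δ (rowOf a p j) = 0 := by
  cases p with
  | none =>
    show δ ((Pi.single 0 1 : Fin (g + 1) → ℂ) j) = 0
    by_cases hj : j = 0
    · rw [hj, Pi.single_eq_same]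
      exact δ.map_one_eq_zero
    · rw [Pi.single_eq_of_ne hj, map_zero]
  | some i => exact hδ i j

theorem der_comb {a : Fin R → Fin (g + 1) → ℂ} {b : Fin (g + 1) → Option (Fin R)}
    (hb : (bmat a b).det ≠ 0) {δ : Derivation ℚ ℂ ℂ} (hδ : ∀ i j, δ (a i j) = 0)
    (p : Option (Fin R)) (x : Fin (g + 1) → ℂ)
    (hx : ∀ j, ∑ i, x i * rowOf a (b i) j = rowOf a p j) (i : Fin (g + 1)) : δ (x i) = 0 := by
  have h2 : Matrix.vecMul (fun i => δ (x i)) (bmat a b) = 0 := by
    funext j
    rw [Matrix.vecMul, dotProduct]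
    show ∑ i, δ (x i) * rowOf a (b i) j = 0
    have h3 := congrArg δ (hx j)
    rw [der_row hδ, map_sum] at h3
    rw [← h3]
    refine Finset.sum_congr rfl fun i _ => ?_
    rw [Derivation.leibniz, der_row hδ, smul_zero, zero_add, smul_eq_mul, mul_comm]
  exact congrFun (Matrix.eq_zero_of_vecMul_eq_zero hb h2) i

theorem der_chQ {a : Fin R → Fin (g + 1) → ℂ} {b : Fin (g + 1) → Option (Fin R)}
    (hb : (bmat a b).det ≠ 0) {δ : Derivation ℚ ℂ ℂ} (hδ : ∀ i j, δ (a i j) = 0)
    (p : Option (Fin R)) (x : Fin (g + 1) → ℂ)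
    (hx : ∀ j, ∑ i, x i * rowOf a (b i) j = rowOf a p j) (i₀ : Fin (g + 1))
    (β : Fin (g + k) →₀ ℕ) : δ (coeff β (chQ k i₀ x)) = 0 := by
  rw [coeff_chQ, map_sum]
  refine Finset.sum_eq_zero fun j _ => ?_
  split_ifs
  · exact der_comb hb hδ p x hx j
  · exact map_zero _

/-- **The chart of an arbitrary arrangement** adapted to the weights `w`. -/
theorem exists_chart {t : Fin g → L} {z : Fin k → L} (H : IsRat (Fin.append t z))
    (a : Fin R → Fin (g + 1) → ℂ) (hspan : ∃ b, (bmat a b).det ≠ 0) (w : Option (Fin R) → ℤ)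
    (hw : ∀ (p : Option (Fin R)) (b : Fin (g + 1) → Option (Fin R)) (x : Fin (g + 1) → ℂ),
      (∀ j, ∑ i, x i * rowOf a (b i) j = rowOf a p j) → ∃ i, x i ≠ 0 ∧ w (b i) ≤ w p) :
    ∃ b : Fin (g + 1) → Option (Fin R), (bmat a b).det ≠ 0 ∧ Monotone (w ∘ b) ∧
      IsRat (chY t a z b) ∧
      (∀ D' : Fin (g + k) → Derivation ℂ L L, Q.jac D' (chY t a z b) =
        algebraMap ℂ L (bmat a b).det * (∏ j : Fin g, chY t a z b (Fin.castAdd k j)) *
          (∏ i, form t a (b i))⁻¹ * Q.jac D' (Fin.append t z)) ∧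
      ∀ p : Option (Fin R), ∃ (i₀ : Fin (g + 1)) (q : MvPolynomial (Fin (g + k)) ℂ),
        w (b i₀) = w p ∧ form t a p = form t a (b i₀) * aeval (chY t a z b) q ∧
        coeff 0 q ≠ 0 ∧ (∀ β ∈ q.support, ∀ l, β (Fin.natAdd g l) = 0) ∧
        ∀ δ : Derivation ℚ ℂ ℂ, (∀ i j, δ (a i j) = 0) → ∀ β, δ (coeff β q) = 0 := by
  obtain ⟨b, hb, hmono, hB⟩ := exists_basis (rowOf a) hspan w hw
  refine ⟨b, hb, hmono, isRat_chY H hb, jac_chY H hb, fun p => ?_⟩
  obtain ⟨x, hx⟩ := exists_comb (rowOf a) b hb (rowOf a p)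
  obtain ⟨-, i₀, h1, h2, h3⟩ := hB p x hx
  refine ⟨i₀, chQ k i₀ x, h2, aeval_chQ H hb p x hx i₀ h3, ?_, support_chQ i₀ x, ?_⟩
  · rw [coeff_zero_chQ i₀ x h3]
    exact h1
  · intro δ hδ β
    exact der_chQ hb hδ p x hx i₀ β

end

end Vale.Agent.P283.A647.H170
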