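import Vale.Agent.P283.A647.Props

/-!
The function field and the residue form of a chart whose units are arbitrary polynomials.
-/

set_option linter.all false

namespace Vale.Agent.P283.A647.H170

open MvPolynomial

section Chart

variable {L : Type} [Field L] [Algebra ℂ L] {d : ℕ}

/-- The coordinates of a chart. -/
noncomputable def pY (y : Fin d → L) (q : MvPolynomial (Fin d) ℂ) : Fin (d + 1) → L :=
  Fin.cons (aeval y q)⁻¹ y

/-- The equation of a chart. -/
noncomputable def pF (q : MvPolynomial (Fin d) ℂ) : MvPolynomial (Fin (d + 1)) ℂ :=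
  X 0 * rename Fin.succ q - 1

theorem pY_sg (y : Fin d → L) (q : MvPolynomial (Fin d) ℂ) : pY y q ∘ Fin.succ = y := by
  funext l
  rfl

theorem q_ne {y : Fin d → L} (H : IsRat y) {q : MvPolynomial (Fin d) ℂ} (hq : q ≠ 0) :
    aeval y q ≠ 0 := fun h0 => hq (H.ind.eq_zero_of_aeval_eq_zero _ h0)

theorem pY_ne {y : Fin d → L} (H : IsRat y) {q : MvPolynomial (Fin d) ℂ} (hq : q ≠ 0)
    (j : Fin (d + 1)) : pY y q j ≠ 0 := by
  unfold pY
  refine Fin.cases ?_ (fun j => ?_) j
  · rw [Fin.cons_zero]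
    exact inv_ne_zero (q_ne H hq)
  · rw [Fin.cons_succ]
    exact H.ind.ne_zero j

theorem aeval_q (y : Fin d → L) (q : MvPolynomial (Fin d) ℂ) :
    aeval (pY y q) (rename Fin.succ q) = aeval y q := by
  rw [aeval_rename, pY_sg]

theorem aeval_pF {y : Fin d → L} (H : IsRat y) {q : MvPolynomial (Fin d) ℂ} (hq : q ≠ 0) :
    aeval (pY y q) (pF q) = 0 := by
  unfold pF
  rw [map_sub, map_mul, aeval_X, map_one, aeval_q]
  have : pY y q 0 = (aeval y q)⁻¹ := rfl
  rw [this, inv_mul_cancel₀ (q_ne H hq), sub_self]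

/-- elimination of the variable `0` -/
theorem pelim (q : MvPolynomial (Fin d) ℂ) (P : MvPolynomial (Fin (d + 1)) ℂ) :
    ∃ (n : ℕ) (P' : MvPolynomial (Fin d) ℂ),
      pF q ∣ rename Fin.succ q ^ n * P - rename Fin.succ P' := by
  induction P using MvPolynomial.induction_on with
  | C a =>
    refine ⟨0, C a, ?_⟩
    rw [pow_zero, one_mul, rename_C, sub_self]
    exact dvd_zero _
  | add P₁ P₂ h₁ h₂ =>
    obtain ⟨n₁, Q₁, h₁⟩ := h₁
    obtain ⟨n₂, Q₂, h₂⟩ := h₂
    refine ⟨n₁ + n₂, q ^ n₂ * Q₁ + q ^ n₁ * Q₂, ?_⟩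
    have h3 : rename Fin.succ q ^ (n₁ + n₂) * (P₁ + P₂) -
        rename Fin.succ (q ^ n₂ * Q₁ + q ^ n₁ * Q₂) =
        rename Fin.succ q ^ n₂ * (rename Fin.succ q ^ n₁ * P₁ - rename Fin.succ Q₁) +
        rename Fin.succ q ^ n₁ * (rename Fin.succ q ^ n₂ * P₂ - rename Fin.succ Q₂) := by
      rw [map_add, map_mul, map_mul, map_pow, map_pow]
      ring
    rw [h3]
    exact dvd_add (h₁.mul_left _) (h₂.mul_left _)
  | mul_X P i h =>
    obtain ⟨n, Q, h⟩ := h
    refine Fin.cases ?_ (fun l => ?_) i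
    · refine ⟨n + 1, Q, ?_⟩
      have h3 : rename Fin.succ q ^ (n + 1) * (P * X 0) -
          rename Fin.succ Q = (rename Fin.succ q ^ n * P - rename Fin.succ Q) +
            rename Fin.succ q ^ n * P * pF q := by
        unfold pF
        ring
      rw [h3]
      exact dvd_add h (dvd_mul_left _ _)
    · refine ⟨n, Q * X l, ?_⟩
      have h3 : rename Fin.succ q ^ n * (P * X (Fin.succ l)) -
          rename Fin.succ (Q * X l) =
          (rename Fin.succ q ^ n * P - rename Fin.succ Q) * X (Fin.succ l) := by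
        rw [map_mul, rename_X]
        ring
      rw [h3]
      exact h.mul_right _

theorem poly_hyp {y : Fin d → L} (H : IsRat y) {q : MvPolynomial (Fin d) ℂ} (hq : q ≠ 0) :
    H647.HypData (pY y q) (pF q) where
  gen := by
    intro g
    have h1 : g ∈ IntermediateField.adjoin ℂ (Set.range y) := by
      rw [H.gen]
      exact IntermediateField.mem_top
    obtain ⟨P, Q, h2⟩ := (IntermediateField.mem_adjoin_range_iff ℂ _ g).1 h1
    by_cases hQ : aeval y Q = 0
    · refine ⟨0, 1, ?_, ?_⟩
      · rw [map_one]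
        exact one_ne_zero
      · rw [h2, hQ, div_zero, map_zero, zero_div]
    · refine ⟨rename Fin.succ P, rename Fin.succ Q, ?_, ?_⟩
      · rw [aeval_rename, pY_sg]
        exact hQ
      · rw [aeval_rename, aeval_rename, pY_sg]
        exact h2
  ker := by
    intro P
    constructor
    · intro hP
      obtain ⟨n, P', h⟩ := pelim q P
      have h1 : aeval (pY y q) (rename Fin.succ q ^ n * P - rename Fin.succ P') = 0 := by
        obtain ⟨g, hg⟩ := h
        rw [hg, map_mul, aeval_pF H hq, zero_mul]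
      rw [map_sub, map_mul, hP, mul_zero, zero_sub, neg_eq_zero, aeval_rename, pY_sg] at h1
      have h2 := H.ind.eq_zero_of_aeval_eq_zero _ h1
      rw [h2, map_zero, sub_zero] at h
      have h3 : IsCoprime (pF q) (rename Fin.succ q ^ n) := by
        refine IsCoprime.pow_right ⟨-1, X 0, ?_⟩
        unfold pF
        ring
      exact h3.dvd_of_dvd_mul_left h
    · rintro ⟨g, rfl⟩
      rw [map_mul, aeval_pF H hq, zero_mul]
  f0 := by
    intro h0
    have h1 := congrArg constantCoeff h0
    unfold pF at h1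
    rw [map_sub, map_mul, constantCoeff_X, zero_mul, map_one, map_zero] at h1
    norm_num at h1
  x0 := pY_ne H hq

theorem ppd (q : MvPolynomial (Fin d) ℂ) : pderiv 0 (pF q) = rename Fin.succ q := by
  have h1 : pderiv 0 (rename Fin.succ q) = 0 := by
    apply pderiv_eq_zero_of_notMem_vars
    intro h
    classical
    obtain ⟨l, -, hl⟩ := Finset.mem_image.1 (vars_rename Fin.succ q h)
    exact Fin.succ_ne_zero l hl
  unfold pF
  rw [map_sub, Derivation.leibniz, h1, pderiv_X_self, smul_zero, zero_add,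
    smul_eq_mul, mul_one, pderiv_one, sub_zero]

theorem psuccAbove (y : Fin d → L) (q : MvPolynomial (Fin d) ℂ) :
    pY y q ∘ (0 : Fin (d + 1)).succAbove = y := by
  funext l
  rw [Function.comp_apply, Fin.zero_succAbove]
  rfl

theorem poly_res {y : Fin d → L} (H : IsRat y) {q : MvPolynomial (Fin d) ℂ} (hq : q ≠ 0)
    {D' : Fin d → Derivation ℂ L L} {h : L} (hh : h * Q.jac D' y = 1) :
    H647.ResForm (pY y q) (pF q) D' (aeval y q * h) := by
  have hj : Q.jac D' y ≠ 0 := by
    intro h0
    rw [h0, mul_zero] at hh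
    exact zero_ne_one hh
  obtain ⟨h1, R⟩ := (poly_hyp H hq : H647.HypData (pY y q) (pF q)).exists_resForm
    (D' := D') ⟨y, hj⟩
  have h2 := R.res 0
  rw [psuccAbove, ppd, aeval_q] at h2
  have h3 : h1 = aeval y q * h := by
    have h4 : h1 * (h * Q.jac D' y) = h1 := by rw [hh, mul_one]
    have h5 : ((0 : Fin (d + 1)) : ℕ) = 0 := rfl
    rw [h5, pow_zero, one_mul] at h2
    calc h1 = h1 * (h * Q.jac D' y) := h4.symm
      _ = (h1 * Q.jac D' y) * h := by ring
      _ = aeval y q * h := by rw [h2]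
  rw [← h3]
  exact R

end Chart

end Vale.Agent.P283.A647.H170
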